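import Vale.Agent.P092.H103.StD
import Vale.Agent.P092.H160.Tensor

/-!
P092 (helper133): transport of isomorphisms of group von Neumann algebras along isomorphisms of
the first group.
-/

set_option linter.all false

open scoped InnerProductSpace
open ContinuousLinearMap

namespace Vale.Agent.P092.H133

open Vale.Agent.P092.H160 Vale.Agent.P092.H160.St Vale.Agent.P092.H103.St

variable {Γ Γ' Λ : Type} [Group Γ] [Group Γ'] [Group Λ]

/-- `E' T E` -/
noncomputable def pull (e : Γ ≃* Γ') (T : Op Γ') : Op Γ :=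
  (rei e.toEquiv.symm).comp (T.comp (rei e.toEquiv))

theorem pull_apply (e : Γ ≃* Γ') (T : Op Γ') (v : Ell2 Γ) :
    pull e T v = rei e.toEquiv.symm (T (rei e.toEquiv v)) := rfl

theorem rei_symm_rei {X Y : Type} (e : X ≃ Y) (v : Ell2 X) : rei e.symm (rei e v) = v := by
  ext x
  simp [rei_apply]

theorem rei_rei_symm {X Y : Type} (e : X ≃ Y) (v : Ell2 Y) : rei e (rei e.symm v) = v := by
  ext x
  simp [rei_apply]

theorem rei_u (e : Γ ≃* Γ') (g : Γ) (v : Ell2 Γ) :
    rei e.toEquiv (lam g v) = lam (e g) (rei e.toEquiv v) := by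
  ext x
  rw [rei_apply, lam_apply, lam_apply, rei_apply]
  have h1 : e.toEquiv.symm ((e g)⁻¹ * x) = g⁻¹ * e.toEquiv.symm x := by
    change e.symm ((e g)⁻¹ * x) = g⁻¹ * e.symm x
    rw [map_mul, map_inv, e.symm_apply_apply]
  rw [h1]

theorem rei_symm_u (e : Γ ≃* Γ') (g : Γ) (v : Ell2 Γ') :
    rei e.toEquiv.symm (lam (e g) v) = lam g (rei e.toEquiv.symm v) := by
  have h1 := rei_u e g (rei e.toEquiv.symm v)
  rw [rei_rei_symm] at h1
  rw [← h1, rei_symm_rei]

theorem pull_pull (e : Γ ≃* Γ') (T : Op Γ') : pull e.symm (pull e T) = T := by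
  ext1 v
  rw [pull_apply, pull_apply]
  have h1 : rei e.symm.toEquiv v = rei e.toEquiv.symm v := rfl
  have h2 : ∀ w, rei e.symm.toEquiv.symm w = rei e.toEquiv w := fun _ => rfl
  rw [h1, h2, rei_rei_symm, rei_rei_symm]

theorem pull_pull' (e : Γ ≃* Γ') (T : Op Γ) : pull e (pull e.symm T) = T := by
  ext1 v
  rw [pull_apply, pull_apply]
  have h1 : ∀ w, rei e.symm.toEquiv w = rei e.toEquiv.symm w := fun _ => rfl
  have h2 : ∀ w, rei e.symm.toEquiv.symm w = rei e.toEquiv w := fun _ => rfl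
  rw [h1, h2, rei_symm_rei, rei_symm_rei]

theorem pull_mul (e : Γ ≃* Γ') (S T : Op Γ') : pull e (St.mul S T) = St.mul (pull e S) (pull e T) := by
  ext1 v
  change rei e.toEquiv.symm (S (T (rei e.toEquiv v))) =
    rei e.toEquiv.symm (S (rei e.toEquiv (rei e.toEquiv.symm (T (rei e.toEquiv v)))))
  rw [rei_rei_symm]

theorem pull_add (e : Γ ≃* Γ') (S T : Op Γ') : pull e (St.add S T) = St.add (pull e S) (pull e T) := by
  ext1 v
  change rei e.toEquiv.symm (S (rei e.toEquiv v) + T (rei e.toEquiv v)) = _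
  rw [map_add]
  rfl

theorem pull_smul (e : Γ ≃* Γ') {c : ℂ} {S T : Op Γ'} (h : IsSmul c S T) :
    IsSmul c (pull e S) (pull e T) := fun v => by
  change rei e.toEquiv.symm (T (rei e.toEquiv v)) = c • rei e.toEquiv.symm (S (rei e.toEquiv v))
  rw [← map_smul]
  exact congrArg _ (h (rei e.toEquiv v))

theorem inner_rei {X Y : Type} (e : X ≃ Y) (v : Ell2 X) (w : Ell2 Y) :
    ⟪rei e v, w⟫_ℂ = ⟪v, rei e.symm w⟫_ℂ := by
  rw [lp.inner_eq_tsum, lp.inner_eq_tsum, ← Equiv.tsum_eq e]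
  refine tsum_congr fun x => ?_
  rw [rei_apply, rei_apply, Equiv.symm_apply_apply, Equiv.symm_symm]

theorem pull_adj (e : Γ ≃* Γ') {S T : Op Γ'} (h : IsAdj S T) : IsAdj (pull e S) (pull e T) := by
  intro v w
  change ⟪rei e.toEquiv.symm (S (rei e.toEquiv v)), w⟫_ℂ =
    ⟪v, rei e.toEquiv.symm (T (rei e.toEquiv w))⟫_ℂ
  rw [inner_rei, ← inner_rei e.toEquiv]
  exact h _ _

theorem pull_u (e : Γ ≃* Γ') (g : Γ) : pull e (u (e g)) = u g := by
  ext1 v
  change rei e.toEquiv.symm (lam (e g) (rei e.toEquiv v)) = lam g v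
  rw [rei_symm_u, rei_symm_rei]

theorem pull_inL (e : Γ ≃* Γ') {T : Op Γ'} (h : InL T) : InL (pull e T) := by
  intro S hS
  have h1 : ∀ g : Γ', St.mul (pull e.symm S) (u g) = St.mul (u g) (pull e.symm S) := by
    intro g
    have e1 : u g = pull e.symm (u (e.symm g)) := (pull_u e.symm g).symm
    rw [e1, ← pull_mul, ← pull_mul, hS]
  have h2 := h _ h1
  have h3 := congrArg (pull e) h2
  rwa [pull_mul, pull_mul, pull_pull'] at h3

/-- transport of an isomorphism -/
noncomputable def transS (e : Γ ≃* Γ') (θ : StarIso Γ Λ) : StarIso Γ' Λ where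
  toFun T := θ.toFun (pull e T)
  invFun A := pull e.symm (θ.invFun A)
  map_mem T hT := θ.map_mem _ (pull_inL e hT)
  inv_mem A hA := pull_inL e.symm (θ.inv_mem A hA)
  left_inv T hT := by rw [θ.left_inv _ (pull_inL e hT), pull_pull]
  right_inv A hA := by rw [pull_pull', θ.right_inv A hA]
  map_add S T hS hT := by rw [pull_add, θ.map_add _ _ (pull_inL e hS) (pull_inL e hT)]
  map_smul c S T hS hT h := θ.map_smul c _ _ (pull_inL e hS) (pull_inL e hT) (pull_smul e h)
  map_mul S T hS hT := by rw [pull_mul, θ.map_mul _ _ (pull_inL e hS) (pull_inL e hT)]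
  map_adj S T hS hT h := θ.map_adj _ _ (pull_inL e hS) (pull_inL e hT) (pull_adj e h)

theorem canonical_transS (e : Γ ≃* Γ') (θ : StarIso Γ Λ) (h : Canonical (transS e θ)) :
    Canonical θ := by
  obtain ⟨δ, χ, w, w', h1, h2, h3, h4, h5⟩ := h
  refine ⟨e.trans δ, χ.comp e.toMonoidHom, w, w', h1, h2, h3, h4, fun g => ?_⟩
  have h6 := h5 (e g)
  have h7 : (transS e θ).toFun (u (e g)) = θ.toFun (u g) := by
    change θ.toFun (pull e (u (e g))) = _
    rw [pull_u]
  rw [h7] at h6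
  exact h6

variable {n : ℕ} {p : MOp n Λ}

/-- transport of an isomorphism onto a corner -/
noncomputable def transC (e : Γ ≃* Γ') (θ : CornerIso Γ Λ n p) : CornerIso Γ' Λ n p where
  toFun T := θ.toFun (pull e T)
  invFun A := pull e.symm (θ.invFun A)
  map_mem T hT := θ.map_mem _ (pull_inL e hT)
  inv_mem A hA := pull_inL e.symm (θ.inv_mem A hA)
  left_inv T hT := by rw [θ.left_inv _ (pull_inL e hT), pull_pull]
  right_inv A hA := by rw [pull_pull', θ.right_inv A hA]
  map_add S T hS hT := by rw [pull_add, θ.map_add _ _ (pull_inL e hS) (pull_inL e hT)]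
  map_smul c S T hS hT h := θ.map_smul c _ _ (pull_inL e hS) (pull_inL e hT) (pull_smul e h)
  map_mul S T hS hT := by rw [pull_mul, θ.map_mul _ _ (pull_inL e hS) (pull_inL e hT)]
  map_adj S T hS hT h := θ.map_adj _ _ (pull_inL e hS) (pull_inL e hT) (pull_adj e h)

theorem canonicalM_transC (e : Γ ≃* Γ') (θ : CornerIso Γ Λ n p) (h : CanonicalM (transC e θ)) :
    CanonicalM θ := by
  obtain ⟨δ, χ, w, w', h1, h2, h3, h4, h5⟩ := h
  refine ⟨e.trans δ, χ.comp e.toMonoidHom, w, w', h1, h2, h3, h4, fun g i j => ?_⟩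
  have h6 := h5 (e g) i j
  have h7 : (transC e θ).toFun (u (e g)) = θ.toFun (u g) := by
    change θ.toFun (pull e (u (e g))) = _
    rw [pull_u]
  rw [h7] at h6
  exact h6

/-- ICC is invariant under isomorphisms. -/
theorem icc_equiv (e : Γ ≃* Γ')
    (h : ∀ g : Γ, g ≠ 1 → Set.Infinite {y : Γ | ∃ h, y = h * g * h⁻¹}) (g : Γ') (hg : g ≠ 1) :
    Set.Infinite {y : Γ' | ∃ h, y = h * g * h⁻¹} := by
  have h1 : e.symm g ≠ 1 := fun h2 => hg (by
    have := congrArg e h2
    rwa [e.apply_symm_apply, map_one] at this)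
  refine ((h _ h1).image (f := e) e.injective.injOn).mono ?_
  rintro _ ⟨_, ⟨k, rfl⟩, rfl⟩
  refine ⟨e k, ?_⟩
  rw [map_mul, map_mul, map_inv, e.apply_symm_apply]

end Vale.Agent.P092.H133
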