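import Vale.Agent.P092.SR.Main
import Vale.Agent.P092.SR.St
import Vale.Agent.P092.H133.Transp

/-!
P092, project B (helper133): from the subgroup form `SR.SuperStmt` to the abstract form
`SR.St.FinalTF` of the hand-in.
-/

set_option linter.all false

open Vale.Agent.P092.H160 Vale.Agent.P092.H160.St Vale.Agent.P092.H103.St Vale.Agent.P092.H515.St

namespace Vale.Agent.P092.H133

open Vale.Agent.P092.SR Vale.Agent.P092.SR.St

/-- The centre of `SL_n` over a field is finite. -/
theorem finite_center_sl (n : ℕ) (k : Type) [NontriviallyNormedField k] (hn : 2 ≤ n) :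
    Finite (Subgroup.center (Matrix.SpecialLinearGroup (Fin n) k)) := by
  haveI : NeZero (max (Fintype.card (Fin n)) 1) := ⟨by positivity⟩
  exact Finite.of_equiv _ (Matrix.SpecialLinearGroup.center_equiv_rootsOfUnity
    (n := Fin n) (R := k)).toEquiv.symm

section

variable {Γ G₁ G₂ : Type} [Group Γ] [Group G₁] [Group G₂] [TopologicalSpace G₁]
  [TopologicalSpace G₂] {i : Γ →* G₁ × G₂}

/-- `Γ` is isomorphic to its image. -/
noncomputable def eqv (hi : IrrLattice i) : Γ ≃* i.range := MonoidHom.ofInjective hi.inj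

theorem dense_fst (hi : IrrLattice i) :
    DenseRange ((MonoidHom.fst G₁ G₂).comp i.range.subtype) := by
  have h := hi.dense₁
  refine h.mono ?_
  rintro _ ⟨g, rfl⟩
  exact ⟨⟨i g, g, rfl⟩, rfl⟩

theorem dense_snd (hi : IrrLattice i) :
    DenseRange ((MonoidHom.snd G₁ G₂).comp i.range.subtype) := by
  have h := hi.dense₂
  refine h.mono ?_
  rintro _ ⟨g, rfl⟩
  exact ⟨⟨i g, g, rfl⟩, rfl⟩

end

theorem finalTF (h : SuperStmt) : FinalTF := by
  intro Γ _ hΓ Λ _ _ hΛ htf θ
  obtain ⟨hicc, k, l, _, _, m, n, i, hk, hl, huk, hul, hm, hn, hi⟩ := hΓ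
  haveI := hk
  haveI := hl
  haveI := huk
  haveI := hul
  exact canonical_transS (eqv hi) θ (h m n k l i.range hm hn hi.lat (dense_fst hi) (dense_snd hi)
    (icc_equiv (eqv hi) hicc) (fun s hs j hj => htf s hs j hj.ne') (transS (eqv hi) θ))

end Vale.Agent.P092.H133
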