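import Vale.Agent.P092.SR.Defs
import Vale.Agent.P092.H828.EndB

/-!
P092 (helper133), project B: assembly of the blocks.
-/

set_option linter.all false

open scoped InnerProductSpace
open Filter Topology ContinuousLinearMap MeasureTheory

namespace Vale.Agent.P092.H133

open Vale.Agent.P092.H160 Vale.Agent.P092.SR

/-- Theorem A. -/
def ThmA : Prop :=
  ∀ (Γ H H' ℋ : Type) [Group Γ] [Group H] [Group H'] [TopologicalSpace H] [TopologicalSpace H']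
    [NormedAddCommGroup ℋ] [InnerProductSpace ℂ ℋ] [CompleteSpace ℋ]
    (pr : Γ →* H) (pr' : Γ →* H') (S T : Γ →* (ℋ →L[ℂ] ℋ)) (sc : Set (ℋ →L[ℂ] ℋ)),
    Countable Γ → GoodGrp H → GoodGrp H' → Leg pr pr' S T sc →
    ∃ (ψ : H' ≃ₜ* H) (P : Set H → (ℋ →L[ℂ] ℋ)),
      PFam pr (ψ.toMulEquiv.toMonoidHom.comp pr') S T sc P

/-- (5) and (6): the families of the two places commute. -/
def Com56 : Prop :=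
  ∀ (Γ G₁ G₂ ℋ : Type) [Group Γ] [Group G₁] [Group G₂] [TopologicalSpace G₁]
    [TopologicalSpace G₂] [NormedAddCommGroup ℋ] [InnerProductSpace ℂ ℋ] [CompleteSpace ℋ]
    (p₁ : Γ →* G₁) (p₂ : Γ →* G₂), GoodGrp G₁ → GoodGrp G₂ → Irr p₁ p₂ →
    ∀ (V R₁ R₂ : Γ →* (ℋ →L[ℂ] ℋ)) (ξ : Unit → ℋ), Tri V R₁ R₂ ξ →
    ∀ (q₁ : Γ →* G₁) (q₂ : Γ →* G₂) (P₁ : Set G₁ → (ℋ →L[ℂ] ℋ)) (P₂ : Set G₂ → (ℋ →L[ℂ] ℋ)),
      ((PFam p₁ q₁ V R₁ (Set.range R₂) P₁ ∧ PFam p₂ q₂ V R₁ (Set.range R₂) P₂) ∨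
        (PFam p₁ q₁ V R₁ (Set.range R₂) P₁ ∧ PFam p₂ q₂ V R₂ (Set.range R₁) P₂)) →
      ∀ C D, CO C → CO D → P₁ C * P₂ D = P₂ D * P₁ C

/-- (7): the families of the two legs at the same place commute. -/
def Com7 : Prop :=
  ∀ (Γ G ℋ : Type) [Group Γ] [Group G] [TopologicalSpace G] [NormedAddCommGroup ℋ]
    [InnerProductSpace ℂ ℋ] [CompleteSpace ℋ] (p q q' : Γ →* G),
    Countable Γ → GoodGrp G → DenseRange p → DenseRange q → DenseRange q' →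
    ∀ (V R₁ R₂ : Γ →* (ℋ →L[ℂ] ℋ)) (ξ : Unit → ℋ), Tri V R₁ R₂ ξ →
    ∀ (P P' : Set G → (ℋ →L[ℂ] ℋ)),
      PFam p q V R₁ (Set.range R₂) P → PFam p q' V R₂ (Set.range R₁) P' →
      ∀ C D, CO C → CO D → P C * P' D = P' D * P C

section one

variable {Γ G₁ G₂ ℋ : Type} [Group Γ] [Group G₁] [Group G₂] [TopologicalSpace G₁]
  [TopologicalSpace G₂] [NormedAddCommGroup ℋ] [InnerProductSpace ℂ ℋ] [CompleteSpace ℋ]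

/-- The two families of one leg. -/
def LegOut (p₁ : Γ →* G₁) (p₂ : Γ →* G₂) (S T : Γ →* (ℋ →L[ℂ] ℋ)) (sc : Set (ℋ →L[ℂ] ℋ)) :
    Prop :=
  ∃ (q₁ : Γ →* G₁) (q₂ : Γ →* G₂) (P₁ : Set G₁ → (ℋ →L[ℂ] ℋ)) (P₂ : Set G₂ → (ℋ →L[ℂ] ℋ)),
    DenseRange q₁ ∧ DenseRange q₂ ∧ PFam p₁ q₁ S T sc P₁ ∧ PFam p₂ q₂ S T sc P₂ ∧
    ∃ (K₁ : Subgroup G₁) (K₂ : Subgroup G₂), COS K₁ ∧ COS K₂ ∧
      ∀ a, q₁ a ∈ K₁ → q₂ a ∈ K₂ → a = 1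

theorem exists_small {p₁ : Γ →* G₁} {p₂ : Γ →* G₂} (h₁ : GoodGrp G₁) (h₂ : GoodGrp G₂)
    (hI : Irr p₁ p₂) : ∃ (K₁ : Subgroup G₁) (K₂ : Subgroup G₂), COS K₁ ∧ COS K₂ ∧
      ∀ a, p₁ a ∈ K₁ → p₂ a ∈ K₂ → a = 1 := by
  classical
  have := h₁.top
  have := h₁.t2
  obtain ⟨L₁, hL₁, -⟩ := h₁.basis Set.univ isOpen_univ (Set.mem_univ _)
  obtain ⟨L₂, hL₂, -⟩ := h₂.basis Set.univ isOpen_univ (Set.mem_univ _)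
  have hfin := hI.disc _ _ hL₁.1 hL₂.1
  have hfin2 : (p₁ '' ({g : Γ | p₁ g ∈ (L₁ : Set G₁) ∧ p₂ g ∈ (L₂ : Set G₂)} \ {1})).Finite :=
    (hfin.subset Set.diff_subset).image _
  have hclosed : IsClosed (p₁ '' ({g : Γ | p₁ g ∈ (L₁ : Set G₁) ∧ p₂ g ∈ (L₂ : Set G₂)} \ {1})) :=
    hfin2.isClosed
  have h1 : (1 : G₁) ∈ (p₁ '' ({g : Γ | p₁ g ∈ (L₁ : Set G₁) ∧ p₂ g ∈ (L₂ : Set G₂)} \ {1}))ᶜ ∩
      (L₁ : Set G₁) := by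
    refine ⟨?_, L₁.one_mem⟩
    rintro ⟨g, ⟨-, hg⟩, hg1⟩
    exact hg (hI.inj₁ (by rw [hg1, map_one]))
  obtain ⟨K₁, hK₁, hK₁s⟩ := h₁.basis _ (hclosed.isOpen_compl.inter hL₁.2) h1
  refine ⟨K₁, L₂, hK₁, hL₂, fun a ha1 ha2 => ?_⟩
  by_contra hne
  exact (hK₁s ha1).1 ⟨a, ⟨⟨(hK₁s ha1).2, ha2⟩, hne⟩, rfl⟩

/-- transport of a compact open subgroup -/
theorem cos_map {H H' : Type} [Group H] [TopologicalSpace H] [Group H'] [TopologicalSpace H']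
    (ψ : H' ≃ₜ* H) {K : Subgroup H'} (hK : COS K) :
    ∃ L : Subgroup H, COS L ∧ ∀ x : H', ψ x ∈ L → x ∈ K := by
  refine ⟨K.map ψ.toMulEquiv.toMonoidHom, ?_, ?_⟩
  · have : ((K.map ψ.toMulEquiv.toMonoidHom : Subgroup H) : Set H) =
        ψ.toHomeomorph '' (K : Set H') := by
      ext y; simp
    unfold COS
    rw [this]
    exact ⟨hK.1.image ψ.toHomeomorph.continuous, ψ.toHomeomorph.isOpenMap _ hK.2⟩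
  · rintro x ⟨y, hy, hxy⟩
    have : y = x := ψ.injective hxy
    rw [← this]; exact hy

theorem denseRange_comp_psi {H H' : Type} [Group H] [TopologicalSpace H] [Group H']
    [TopologicalSpace H'] (ψ : H' ≃ₜ* H) {p : Γ →* H'} (hp : DenseRange p) :
    DenseRange (ψ.toMulEquiv.toMonoidHom.comp p) :=
  (ψ.toHomeomorph.surjective.denseRange).comp hp ψ.toHomeomorph.continuous

/-- From Theorem A to the two families of a leg, `σ` the identity. -/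
theorem legOut_id (hA : ThmA) {p₁ : Γ →* G₁} {p₂ : Γ →* G₂} (h₁ : GoodGrp G₁) (h₂ : GoodGrp G₂)
    (hI : Irr p₁ p₂) {S T : Γ →* (ℋ →L[ℂ] ℋ)} {sc : Set (ℋ →L[ℂ] ℋ)}
    (hl₁ : Leg p₁ p₁ S T sc) (hl₂ : Leg p₂ p₂ S T sc) : LegOut p₁ p₂ S T sc := by
  obtain ⟨ψ₁, P₁, hP₁⟩ := hA Γ G₁ G₁ ℋ p₁ p₁ S T sc hI.countable h₁ h₁ hl₁
  obtain ⟨ψ₂, P₂, hP₂⟩ := hA Γ G₂ G₂ ℋ p₂ p₂ S T sc hI.countable h₂ h₂ hl₂
  obtain ⟨K₁, K₂, hK₁, hK₂, hK⟩ := exists_small h₁ h₂ hI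
  obtain ⟨L₁, hL₁, hL₁s⟩ := cos_map ψ₁ hK₁
  obtain ⟨L₂, hL₂, hL₂s⟩ := cos_map ψ₂ hK₂
  exact ⟨_, _, P₁, P₂, denseRange_comp_psi ψ₁ hI.dense₁, denseRange_comp_psi ψ₂ hI.dense₂, hP₁,
    hP₂, L₁, L₂, hL₁, hL₂, fun a h1 h2 => hK a (hL₁s _ h1) (hL₂s _ h2)⟩

/-- From Theorem A to the two families of a leg, `σ` the swap. -/
theorem legOut_swap (hA : ThmA) {p₁ : Γ →* G₁} {p₂ : Γ →* G₂} (h₁ : GoodGrp G₁)
    (h₂ : GoodGrp G₂) (hI : Irr p₁ p₂) {S T : Γ →* (ℋ →L[ℂ] ℋ)} {sc : Set (ℋ →L[ℂ] ℋ)}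
    (hl₁ : Leg p₁ p₂ S T sc) (hl₂ : Leg p₂ p₁ S T sc) : LegOut p₁ p₂ S T sc := by
  obtain ⟨ψ₁, P₁, hP₁⟩ := hA Γ G₁ G₂ ℋ p₁ p₂ S T sc hI.countable h₁ h₂ hl₁
  obtain ⟨ψ₂, P₂, hP₂⟩ := hA Γ G₂ G₁ ℋ p₂ p₁ S T sc hI.countable h₂ h₁ hl₂
  obtain ⟨K₁, K₂, hK₁, hK₂, hK⟩ := exists_small h₁ h₂ hI
  obtain ⟨L₁, hL₁, hL₁s⟩ := cos_map ψ₁ hK₂
  obtain ⟨L₂, hL₂, hL₂s⟩ := cos_map ψ₂ hK₁
  exact ⟨_, _, P₁, P₂, denseRange_comp_psi ψ₁ hI.dense₂, denseRange_comp_psi ψ₂ hI.dense₁, hP₁,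
    hP₂, L₁, L₂, hL₁, hL₂, fun a h1 h2 => hK a (hL₂s _ h2) (hL₁s _ h1)⟩

/-- The product representation of the two targets. -/
noncomputable def RX (R₁ R₂ : Γ →* (ℋ →L[ℂ] ℋ)) (x : Γ × Γ) : ℋ →L[ℂ] ℋ := R₁ x.1 * R₂ x.2

theorem urep_RX {V R₁ R₂ : Γ →* (ℋ →L[ℂ] ℋ)} {ι : Type} [Fintype ι] {ξ : ι → ℋ}
    (h : Tri V R₁ R₂ ξ) : H828.URep (RX R₁ R₂) where
  one := by
    change R₁ 1 * R₂ 1 = 1
    rw [map_one, map_one, one_mul]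
  mul := fun x y => by
    change R₁ (x.1 * y.1) * R₂ (x.2 * y.2) = R₁ x.1 * R₂ x.2 * (R₁ y.1 * R₂ y.2)
    rw [map_mul, map_mul]
    calc R₁ x.1 * R₁ y.1 * (R₂ x.2 * R₂ y.2) = R₁ x.1 * (R₁ y.1 * R₂ x.2) * R₂ y.2 := by
          simp only [mul_assoc]
      _ = _ := by rw [h.comm₁₂]; simp only [mul_assoc]
  adj := fun x => by
    change adjoint (R₁ x.1 * R₂ x.2) = R₁ (x.1)⁻¹ * R₂ (x.2)⁻¹
    rw [← star_eq_adjoint, star_mul, star_eq_adjoint, star_eq_adjoint, h.adj₁, h.adj₂,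
      h.comm₁₂]

theorem urep_V {V R₁ R₂ : Γ →* (ℋ →L[ℂ] ℋ)} {ι : Type} [Fintype ι] {ξ : ι → ℋ}
    (h : Tri V R₁ R₂ ξ) : H828.URep V where
  one := map_one V
  mul := map_mul V
  adj := h.adjV

theorem V_RX {V R₁ R₂ : Γ →* (ℋ →L[ℂ] ℋ)} {ι : Type} [Fintype ι] {ξ : ι → ℋ}
    (h : Tri V R₁ R₂ ξ) (g : Γ) (x : Γ × Γ) : V g * RX R₁ R₂ x = RX R₁ R₂ x * V g := by
  change V g * (R₁ x.1 * R₂ x.2) = R₁ x.1 * R₂ x.2 * V g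
  rw [← mul_assoc, h.comm₁, mul_assoc, h.comm₂, mul_assoc]

theorem reg_RX {V R₁ R₂ : Γ →* (ℋ →L[ℂ] ℋ)} {ξ : Unit → ℋ} (h : Tri V R₁ R₂ ξ)
    (h1 : ‖ξ ()‖ = 1) : H828.Reg (RX R₁ R₂) (ξ ()) := by
  classical
  have hfr : ∀ η : ℋ, HasSum (fun x : Γ × Γ => ‖⟪RX R₁ R₂ x (ξ ()), η⟫_ℂ‖ ^ 2) (‖η‖ ^ 2) := by
    intro η
    have := h.frame η
    rw [← (Equiv.uniqueProd (Γ × Γ) Unit).symm.hasSum_iff] at this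
    exact this
  refine ⟨urep_RX h, h1, fun x hx => ?_, fun η hη => ?_⟩
  · have h2 := hfr (ξ ())
    have h3 : (1 : ℝ) + ‖⟪RX R₁ R₂ x (ξ ()), ξ ()⟫_ℂ‖ ^ 2 ≤ 1 := by
      have h4 := sum_le_hasSum {1, x} (fun _ _ => by positivity) h2
      rw [Finset.sum_pair (Ne.symm hx), h1] at h4
      have h5 : ⟪RX R₁ R₂ 1 (ξ ()), ξ ()⟫_ℂ = 1 := by
        rw [(urep_RX h).one]
        change ⟪ξ (), ξ ()⟫_ℂ = 1
        rw [inner_self_eq_norm_sq_to_K, h1]; simp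
      rw [h5] at h4
      simpa using h4
    have h6 : ‖⟪RX R₁ R₂ x (ξ ()), ξ ()⟫_ℂ‖ ^ 2 ≤ 0 := by linarith
    have h7 : ⟪RX R₁ R₂ x (ξ ()), ξ ()⟫_ℂ = 0 := by
      have := le_antisymm h6 (by positivity)
      simpa using this
    rw [← inner_conj_symm, h7, map_zero]
  · have h2 := hfr η
    have h3 : (fun x : Γ × Γ => ‖⟪RX R₁ R₂ x (ξ ()), η⟫_ℂ‖ ^ 2) = fun _ => 0 := by
      funext x
      rw [hη x]; simp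
    rw [h3] at h2
    have h4 := h2.unique hasSum_zero
    simpa using h4

end one

section cov

variable {Γ G ℋ : Type} [Group Γ] [Group G] [TopologicalSpace G] [IsTopologicalGroup G]
  [T2Space G] [NormedAddCommGroup ℋ] [InnerProductSpace ℂ ℋ] [CompleteSpace ℋ]
  {p q : Γ →* G} {S T : Γ →* (ℋ →L[ℂ] ℋ)} {sc : Set (ℋ →L[ℂ] ℋ)} {P : Set G → (ℋ →L[ℂ] ℋ)}

theorem co_empty : CO (∅ : Set G) := ⟨isCompact_empty, isOpen_empty⟩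

theorem co_inter {C D : Set G} (hC : CO C) (hD : CO D) : CO (C ∩ D) :=
  ⟨hC.1.inter_right hD.1.isClosed, hC.2.inter hD.2⟩

theorem co_diff {C D : Set G} (hC : CO C) (hD : CO D) : CO (C \ D) :=
  ⟨hC.1.diff hD.2, hC.2.sdiff hD.1.isClosed⟩

theorem co_union {C D : Set G} (hC : CO C) (hD : CO D) : CO (C ∪ D) :=
  ⟨hC.1.union hD.1, hC.2.union hD.2⟩

theorem pfam_empty (h : PFam p q S T sc P) : P ∅ = 0 := by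
  have h1 := h.add ∅ ∅ co_empty co_empty (by simp)
  rw [Set.union_empty] at h1
  exact left_eq_add.mp h1

theorem pfam_null_sub (h : PFam p q S T sc P) {C D : Set G} (hC : CO C) (hD : CO D)
    (hs : D ⊆ C) {v : ℋ} (hv : P C v = 0) : P D v = 0 := by
  have h1 := h.mul D C hD hC
  rw [Set.inter_eq_left.mpr hs] at h1
  rw [← h1]
  change P D (P C v) = 0
  rw [hv, map_zero]

theorem pfam_null_union (h : PFam p q S T sc P) {C D : Set G} (hC : CO C) (hD : CO D) {v : ℋ}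
    (hv : P C v = 0) (hv' : P D v = 0) : P (C ∪ D) v = 0 := by
  have h1 := h.add C (D \ C) hC (co_diff hD hC) disjoint_sdiff_self_right
  rw [Set.union_diff_self] at h1
  rw [h1]
  change P C v + P (D \ C) v = 0
  rw [hv, pfam_null_sub h hD (co_diff hD hC) Set.diff_subset hv', add_zero]

theorem co_smul (g : G) {C : Set G} (hC : CO C) : CO ((fun y => g * y) '' C) :=
  ⟨hC.1.image (continuous_const_mul g), (isOpenMap_mul_left g) _ hC.2⟩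

theorem pfam_nd (h : PFam p q S T sc P) (K : Subgroup G) (hK : CO (K : Set G)) (v : ℋ)
    (hv : ∀ g : G, P ((fun y => g * y) '' (K : Set G)) v = 0) : v = 0 := by
  refine h.nondeg v fun C hC => ?_
  classical
  have key : ∀ F : Finset G, CO (⋃ g ∈ F, (fun y => g * y) '' (K : Set G)) ∧
      P (⋃ g ∈ F, (fun y => g * y) '' (K : Set G)) v = 0 := by
    intro F
    induction F using Finset.induction_on with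
    | empty => simpa using ⟨co_empty, by rw [pfam_empty h]; rfl⟩
    | insert a F _ ih =>
      rw [Finset.set_biUnion_insert]
      exact ⟨co_union (co_smul a hK) ih.1, pfam_null_union h (co_smul a hK) ih.1 (hv a) ih.2⟩
  obtain ⟨F, hF⟩ := hC.1.elim_finite_subcover (fun g : G => (fun y => g * y) '' (K : Set G))
    (fun g => (co_smul g hK).2) (fun x _ => Set.mem_iUnion.mpr ⟨x, 1, K.one_mem, mul_one x⟩)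
  exact pfam_null_sub h (key F).1 hC hF (key F).2

end cov

section cov2

variable {Γ G ℋ : Type} [Group Γ] [Group G] [TopologicalSpace G] [IsTopologicalGroup G]
  [T2Space G] [NormedAddCommGroup ℋ] [InnerProductSpace ℂ ℋ] [CompleteSpace ℋ]
  {p q : Γ →* G} {V R₁ R₂ : Γ →* (ℋ →L[ℂ] ℋ)} {P : Set G → (ℋ →L[ℂ] ℋ)}

theorem covProj_one {ι : Type} [Fintype ι] {ξ : ι → ℋ} (ht : Tri V R₁ R₂ ξ)
    (h : PFam p q V R₁ (Set.range R₂) P) :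
    H828.CovProj (RX R₁ R₂) V p (fun x => q x.1) P where
  idem := fun C h1 h2 => by rw [h.mul C C ⟨h1, h2⟩ ⟨h1, h2⟩, Set.inter_self]
  adj := fun C h1 h2 => h.adj C ⟨h1, h2⟩
  comm := fun C D h1 h2 h3 h4 => by
    rw [h.mul C D ⟨h1, h2⟩ ⟨h3, h4⟩, h.mul D C ⟨h3, h4⟩ ⟨h1, h2⟩, Set.inter_comm]
  disj := fun C D h1 h2 h3 h4 hd => by
    rw [h.mul C D ⟨h1, h2⟩ ⟨h3, h4⟩, hd.inter_eq, pfam_empty h]
  nd := fun K h1 h2 v hv => pfam_nd h K ⟨h1, h2⟩ v hv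
  cV := fun g C h1 h2 => h.covS g C ⟨h1, h2⟩
  cR := fun x C h1 h2 => by
    have e : RX R₁ R₂ x * P C * RX R₁ R₂ x⁻¹ = R₁ x.1 * P C * R₁ (x.1)⁻¹ := by
      change R₁ x.1 * R₂ x.2 * P C * (R₁ (x.1)⁻¹ * R₂ (x.2)⁻¹) = _
      have e1 : R₂ x.2 * P C = P C * R₂ x.2 := h.comm _ ⟨x.2, rfl⟩ C ⟨h1, h2⟩
      have e2 : R₂ x.2 * R₂ (x.2)⁻¹ = 1 := by rw [← map_mul, mul_inv_cancel, map_one]
      calc R₁ x.1 * R₂ x.2 * P C * (R₁ (x.1)⁻¹ * R₂ (x.2)⁻¹)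
          = R₁ x.1 * (R₂ x.2 * P C) * (R₁ (x.1)⁻¹ * R₂ (x.2)⁻¹) := by simp only [mul_assoc]
        _ = R₁ x.1 * P C * (R₂ x.2 * (R₁ (x.1)⁻¹ * R₂ (x.2)⁻¹)) := by
            rw [e1]; simp only [mul_assoc]
        _ = R₁ x.1 * P C * (R₂ x.2 * (R₂ (x.2)⁻¹ * R₁ (x.1)⁻¹)) := by rw [ht.comm₁₂]
        _ = R₁ x.1 * P C * ((R₂ x.2 * R₂ (x.2)⁻¹) * R₁ (x.1)⁻¹) := by simp only [mul_assoc]
        _ = _ := by rw [e2, one_mul]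
    rw [e]
    exact h.covT x.1 C ⟨h1, h2⟩

theorem covProj_two {ι : Type} [Fintype ι] {ξ : ι → ℋ} (ht : Tri V R₁ R₂ ξ)
    (h : PFam p q V R₂ (Set.range R₁) P) :
    H828.CovProj (RX R₁ R₂) V p (fun x => q x.2) P where
  idem := fun C h1 h2 => by rw [h.mul C C ⟨h1, h2⟩ ⟨h1, h2⟩, Set.inter_self]
  adj := fun C h1 h2 => h.adj C ⟨h1, h2⟩
  comm := fun C D h1 h2 h3 h4 => by
    rw [h.mul C D ⟨h1, h2⟩ ⟨h3, h4⟩, h.mul D C ⟨h3, h4⟩ ⟨h1, h2⟩, Set.inter_comm]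
  disj := fun C D h1 h2 h3 h4 hd => by
    rw [h.mul C D ⟨h1, h2⟩ ⟨h3, h4⟩, hd.inter_eq, pfam_empty h]
  nd := fun K h1 h2 v hv => pfam_nd h K ⟨h1, h2⟩ v hv
  cV := fun g C h1 h2 => h.covS g C ⟨h1, h2⟩
  cR := fun x C h1 h2 => by
    have e : RX R₁ R₂ x * P C * RX R₁ R₂ x⁻¹ = R₂ x.2 * P C * R₂ (x.2)⁻¹ := by
      change R₁ x.1 * R₂ x.2 * P C * (R₁ (x.1)⁻¹ * R₂ (x.2)⁻¹) = _
      have e1 : R₁ x.1 * P C = P C * R₁ x.1 := h.comm _ ⟨x.1, rfl⟩ C ⟨h1, h2⟩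
      have e2 : R₁ x.1 * R₁ (x.1)⁻¹ = 1 := by rw [← map_mul, mul_inv_cancel, map_one]
      calc R₁ x.1 * R₂ x.2 * P C * (R₁ (x.1)⁻¹ * R₂ (x.2)⁻¹)
          = R₂ x.2 * (R₁ x.1 * P C) * (R₁ (x.1)⁻¹ * R₂ (x.2)⁻¹) := by
            rw [ht.comm₁₂]; simp only [mul_assoc]
        _ = R₂ x.2 * P C * ((R₁ x.1 * R₁ (x.1)⁻¹) * R₂ (x.2)⁻¹) := by
            rw [e1]; simp only [mul_assoc]
        _ = _ := by rw [e2, one_mul]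
    rw [e]
    exact h.covT x.2 C ⟨h1, h2⟩

end cov2

section final

variable {Γ G₁ G₂ ℋ : Type} [Group Γ] [Group G₁] [Group G₂] [TopologicalSpace G₁]
  [TopologicalSpace G₂] [NormedAddCommGroup ℋ] [InnerProductSpace ℂ ℋ] [CompleteSpace ℋ]

theorem tri_swap {V R₁ R₂ : Γ →* (ℋ →L[ℂ] ℋ)} {ι : Type} [Fintype ι] {ξ : ι → ℋ}
    (h : Tri V R₁ R₂ ξ) : Tri V R₂ R₁ ξ where
  adjV := h.adjV
  adj₁ := h.adj₂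
  adj₂ := h.adj₁
  comm₁ := h.comm₂
  comm₂ := h.comm₁
  comm₁₂ := fun g k => (h.comm₁₂ k g).symm
  ne := h.ne
  frame := fun η => by
    have h1 := h.frame η
    rw [← ((Equiv.refl ι).prodCongr (Equiv.prodComm Γ Γ)).hasSum_iff] at h1
    have e : (fun p : ι × Γ × Γ => ‖⟪R₂ p.2.1 (R₁ p.2.2 (ξ p.1)), η⟫_ℂ‖ ^ 2) =
        (fun p : ι × Γ × Γ => ‖⟪R₁ p.2.1 (R₂ p.2.2 (ξ p.1)), η⟫_ℂ‖ ^ 2) ∘
          ((Equiv.refl ι).prodCongr (Equiv.prodComm Γ Γ)) := by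
      funext p
      have e1 : R₂ p.2.1 (R₁ p.2.2 (ξ p.1)) = R₁ p.2.2 (R₂ p.2.1 (ξ p.1)) :=
        (congrArg (fun A : ℋ →L[ℂ] ℋ => A (ξ p.1)) (h.comm₁₂ p.2.2 p.2.1)).symm
      rw [e1]
      rfl
    rw [e]
    exact h1

/-- **Assembly, abstract part**: from the families of the two legs to the eigenvector. -/
theorem abs_end (h56 : Com56) (h7 : Com7) {p₁ : Γ →* G₁} {p₂ : Γ →* G₂} (h₁ : GoodGrp G₁)
    (h₂ : GoodGrp G₂) (hI : Irr p₁ p₂) {V R₁ R₂ : Γ →* (ℋ →L[ℂ] ℋ)} {ξ : Unit → ℋ}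
    (ht : Tri V R₁ R₂ ξ) (hξ : ‖ξ ()‖ = 1) (hl₁ : LegOut p₁ p₂ V R₁ (Set.range R₂))
    (hl₂ : LegOut p₁ p₂ V R₂ (Set.range R₁)) :
    ∃ (w : ℋ) (δ : Γ →* Γ × Γ) (χ : Γ →* ℂ), H828.Reg (RX R₁ R₂) w ∧ (∀ g, ‖χ g‖ = 1) ∧
      ∀ g, V g w = χ g • RX R₁ R₂ (δ g)⁻¹ w := by
  have := h₁.top
  have := h₁.t2
  have := h₂.top
  have := h₂.t2
  obtain ⟨q₁, q₂, P₁, P₂, hd₁, hd₂, hP₁, hP₂, K₁, K₂, hK₁, hK₂, hK⟩ := hl₁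
  obtain ⟨q₁', q₂', P₁', P₂', hd₁', hd₂', hP₁', hP₂', K₁', K₂', hK₁', hK₂', hK'⟩ := hl₂
  refine H828.end_four (reg_RX ht hξ) (urep_V ht) (V_RX ht) (covProj_one ht hP₁)
    (covProj_one ht hP₂) (covProj_two ht hP₁') (covProj_two ht hP₂') ?_ ?_ ?_ ?_ ?_ ?_
    K₁ K₂ K₁' K₂' hK₁.1 hK₂.1 hK₁'.1 hK₂'.1 hK₁.2 hK₂.2 hK₁'.2 hK₂'.2 ?_
  · exact fun C D a b c d => h56 Γ G₁ G₂ ℋ p₁ p₂ h₁ h₂ hI V R₁ R₂ ξ ht q₁ q₂ P₁ P₂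
      (Or.inl ⟨hP₁, hP₂⟩) C D ⟨a, b⟩ ⟨c, d⟩
  · exact fun C D a b c d => h7 Γ G₁ ℋ p₁ q₁ q₁' hI.countable h₁ hI.dense₁ hd₁ hd₁' V R₁ R₂ ξ ht
      P₁ P₁' hP₁ hP₁' C D ⟨a, b⟩ ⟨c, d⟩
  · exact fun C D a b c d => h56 Γ G₁ G₂ ℋ p₁ p₂ h₁ h₂ hI V R₁ R₂ ξ ht q₁ q₂' P₁ P₂'
      (Or.inr ⟨hP₁, hP₂'⟩) C D ⟨a, b⟩ ⟨c, d⟩
  · exact fun C D a b c d => (h56 Γ G₁ G₂ ℋ p₁ p₂ h₁ h₂ hI V R₂ R₁ ξ (tri_swap ht) q₁' q₂ P₁' P₂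
      (Or.inr ⟨hP₁', hP₂⟩) D C ⟨c, d⟩ ⟨a, b⟩).symm
  · exact fun C D a b c d => h7 Γ G₂ ℋ p₂ q₂ q₂' hI.countable h₂ hI.dense₂ hd₂ hd₂' V R₁ R₂ ξ ht
      P₂ P₂' hP₂ hP₂' C D ⟨a, b⟩ ⟨c, d⟩
  · exact fun C D a b c d => h56 Γ G₁ G₂ ℋ p₁ p₂ h₁ h₂ hI V R₂ R₁ ξ (tri_swap ht) q₁' q₂' P₁' P₂'
      (Or.inl ⟨hP₁', hP₂'⟩) C D ⟨a, b⟩ ⟨c, d⟩
  · intro x a b c d
    exact Prod.ext (hK x.1 a b) (hK' x.2 c d)

end final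

end Vale.Agent.P092.H133
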