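import Vale.Agent.P092.H971.GFS
import Vale.Agent.P092.H113.IrrIsoStmt
import Vale.Agent.P092.H793.ProjLat
import Vale.Agent.P092.H839.FlipStmt
import Vale.Agent.P092.H776.Blk
import Vale.Agent.P092.H839.A1Stmt
import Vale.Agent.P092.H53.Swap
import Vale.Agent.P092.H144.Match
import Vale.Agent.P092.H113.PassStmt
import Vale.Agent.P092.H103.Bfin
import Vale.Agent.P092.H217.ThA
import Vale.Agent.P092.H911.C56Stmt
import Vale.Agent.P092.H941.C7
import Vale.Agent.P092.H828.EndStmt
import Vale.Agent.P092.H200.HeightL
import Vale.Agent.P092.H133.Final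
import Vale.Agent.P092.H58.Named

/-!
P092, project B: the final assembly, torsion-free `Λ`, `t = 1`, two factors.
-/

namespace Vale.Agent.P092.H133

open Vale.Agent.P092

theorem superStmt : SR.SuperStmt :=
  SR.super_of_blocks H971.gfStmt H113.irrIsoStmt H793.projLatStmt H839.modelStmt H776.commStmt
    H776.ergStmt H839.flipStmt H839.a1Stmt SR.swapLegStmt H144.matchStmt H113.passStmt
    H103.finStmt H217.thAStmt H911.c5Stmt H911.c6Stmt H941.c7Stmt H828.endStmt
    H200.HeightL.heightStmt fun n k _ hn => finite_center_sl n k hn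

theorem finalTFN : SR.St.FinalTFN := H58.tfn_of (finalTF superStmt)

end Vale.Agent.P092.H133
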