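import Vale.Agent.P092.H962.FinRR
import Vale.Agent.P092.H632.T.TorR

/-!
P092, project B: the final assembly, all amplifications, all ICC groups `Λ`, any number of factors.
-/

set_option linter.all false

namespace Vale.Agent.P092.H133

open Vale.Agent.P092

theorem torRT (r : ℕ) : H962.TorRT r fun _ _ => True :=
  fun n k _ _ _ Γ hn hlat hd hicc Λ _ hΛ _ I _ α hα j U hU =>
    H632.T.torR Γ hn hlat hicc hΛ hα j (hd j) U hU

/-- `FinalAllR`: ICC lattices with dense projections in products of `r ≥ 2` groups `SL_n` over
non-archimedean local fields satisfy the conclusion of the question. -/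
theorem finalAllR : SR.St.FinalAllR := H962.finalAllR fun r _ => torRT r

end Vale.Agent.P092.H133
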